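import Vale.Agent.helper2.P047Defs

open Finset BigOperators

namespace Vale.Agent.helper2.P047

@[simp] lemma sg_true : sg true = 1 := rfl
@[simp] lemma sg_false : sg false = -1 := rfl

lemma sg_sq (b : Bool) : sg b * sg b = 1 := by cases b <;> simp [sg]

variable {n : ℕ}

/-- product function -/
def prodFn (a : Bool → ℝ) (S : Finset (Fin n)) (x : Fin n → Bool) : ℝ := ∏ i ∈ S, a (x i)

lemma chi_eq_prodFn (S : Finset (Fin n)) (x : Fin n → Bool) : chi S x = prodFn sg S x := rfl

/-- product weight -/
noncomputable def wt (t : ℝ) (x : Fin n → Bool) : ℝ := ∏ i, (1 + t * sg (x i)) / 2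

/-- biased expectation -/
noncomputable def Et (t : ℝ) (h : (Fin n → Bool) → ℝ) : ℝ := ∑ x, wt t x * h x

lemma sum_prod_bool (F : Fin n → Bool → ℝ) :
    ∑ x : Fin n → Bool, ∏ i, F i (x i) = ∏ i, (F i true + F i false) := by
  have h := (Finset.prod_univ_sum (fun _ : Fin n => (Finset.univ : Finset Bool)) F).symm
  simp only [Fintype.piFinset_univ] at h
  rw [h]
  refine Finset.prod_congr rfl fun i _ => ?_
  simp [add_comm]

lemma Et_prod (t : ℝ) (a : Fin n → Bool → ℝ) :
    Et t (fun x => ∏ i, a i (x i)) =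
      ∏ i, ((1 + t) / 2 * a i true + (1 - t) / 2 * a i false) := by
  unfold Et wt
  have : ∀ x : Fin n → Bool, (∏ i, (1 + t * sg (x i)) / 2) * ∏ i, a i (x i)
      = ∏ i, ((1 + t * sg (x i)) / 2 * a i (x i)) := fun x => by
    rw [Finset.prod_mul_distrib]
  simp_rw [this]
  rw [sum_prod_bool (fun i b => (1 + t * sg b) / 2 * a i b)]
  refine Finset.prod_congr rfl fun i _ => ?_
  simp only [sg_true, sg_false]
  ring

lemma prodFn_eq_prod_ite (a : Bool → ℝ) (S : Finset (Fin n)) (x : Fin n → Bool) :
    prodFn a S x = ∏ i, (if i ∈ S then a (x i) else 1) := by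
  unfold prodFn
  rw [Finset.prod_ite_mem]
  simp

lemma Et_one (t : ℝ) : Et (n := n) t (fun _ => 1) = 1 := by
  have := Et_prod (n := n) t (fun _ _ => 1)
  simp only [Finset.prod_const_one] at this
  rw [this]
  refine Finset.prod_eq_one fun i _ => ?_
  ring

/-- `E_t` of a product function. -/
lemma Et_prodFn (t : ℝ) (a : Bool → ℝ) (S : Finset (Fin n)) :
    Et t (prodFn a S) = ((1 + t) / 2 * a true + (1 - t) / 2 * a false) ^ S.card := by
  have h1 : prodFn a S = fun x => ∏ i, (if i ∈ S then a (x i) else 1) := by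
    funext x; exact prodFn_eq_prod_ite a S x
  rw [h1]
  have := Et_prod (n := n) t (fun i b => if i ∈ S then a b else 1)
  rw [this]
  have h2 : ∀ i, ((1 + t) / 2 * (if i ∈ S then a true else 1)
      + (1 - t) / 2 * (if i ∈ S then a false else 1))
      = if i ∈ S then ((1 + t) / 2 * a true + (1 - t) / 2 * a false) else 1 := by
    intro i
    split_ifs <;> ring
  simp_rw [h2]
  rw [Finset.prod_ite_mem]
  simp

lemma Et_chi (t : ℝ) (S : Finset (Fin n)) : Et t (chi S) = t ^ S.card := by
  have : chi S = prodFn sg S := rfl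
  rw [this, Et_prodFn]
  congr 1
  simp only [sg_true, sg_false]
  ring

lemma Et_add (t : ℝ) (h k : (Fin n → Bool) → ℝ) :
    Et t (fun x => h x + k x) = Et t h + Et t k := by
  unfold Et
  rw [← Finset.sum_add_distrib]
  refine Finset.sum_congr rfl fun x _ => ?_
  ring

lemma Et_const_mul (t c : ℝ) (h : (Fin n → Bool) → ℝ) :
    Et t (fun x => c * h x) = c * Et t h := by
  unfold Et
  rw [Finset.mul_sum]
  refine Finset.sum_congr rfl fun x _ => ?_
  ring

lemma Et_sum {ι : Type*} (s : Finset ι) (t : ℝ) (h : ι → (Fin n → Bool) → ℝ) :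
    Et t (fun x => ∑ j ∈ s, h j x) = ∑ j ∈ s, Et t (h j) := by
  unfold Et
  simp_rw [Finset.mul_sum]
  rw [Finset.sum_comm]

/-- Fourier inversion on the cube -/
lemma chi_orth (x y : Fin n → Bool) :
    ∑ S : Finset (Fin n), chi S x * chi S y = if x = y then 2 ^ n else 0 := by
  have h1 : ∀ S : Finset (Fin n), chi S x * chi S y = ∏ i ∈ S, (sg (x i) * sg (y i)) := by
    intro S
    unfold chi
    rw [Finset.prod_mul_distrib]
  simp_rw [h1]
  have h2 := Finset.prod_one_add (f := fun i : Fin n => sg (x i) * sg (y i)) Finset.univ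
  rw [Finset.powerset_univ] at h2
  rw [← h2]
  split_ifs with hxy
  · subst hxy
    have : ∀ i : Fin n, 1 + sg (x i) * sg (x i) = 2 := fun i => by rw [sg_sq]; norm_num
    simp_rw [this]
    simp
  · obtain ⟨i, hi⟩ : ∃ i, x i ≠ y i := by
      by_contra hcon
      push Not at hcon
      exact hxy (funext hcon)
    apply Finset.prod_eq_zero (Finset.mem_univ i)
    revert hi
    cases x i <;> cases y i <;> simp [sg]

lemma fourier_inversion (f : (Fin n → Bool) → ℝ) (x : Fin n → Bool) :
    f x = ∑ S : Finset (Fin n), fhat f S * chi S x := by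
  unfold fhat
  have : ∀ S : Finset (Fin n), (∑ y, f y * chi S y) / 2 ^ n * chi S x
      = ∑ y, f y * (chi S y * chi S x) / 2 ^ n := by
    intro S
    rw [Finset.sum_div, Finset.sum_mul]
    refine Finset.sum_congr rfl fun y _ => ?_
    ring
  simp_rw [this]
  rw [Finset.sum_comm]
  simp_rw [← Finset.sum_div, ← Finset.mul_sum]
  simp_rw [chi_orth]
  have h2 : (2:ℝ) ^ n ≠ 0 := by positivity
  rw [Finset.sum_eq_single x]
  · simp [h2]
  · intro y _ hy
    simp [hy]
  · simp

/-- discrete derivative in coordinate `i` -/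
noncomputable def Dif (f : (Fin n → Bool) → ℝ) (i : Fin n) (x : Fin n → Bool) : ℝ :=
  (f (Function.update x i true) - f (Function.update x i false)) / 2

lemma prodFn_update (a : Bool → ℝ) (S : Finset (Fin n)) (x : Fin n → Bool) (i : Fin n) (b : Bool) :
    prodFn a S (Function.update x i b) =
      if i ∈ S then a b * prodFn a (S.erase i) x else prodFn a S x := by
  unfold prodFn
  split_ifs with hi
  · rw [← Finset.mul_prod_erase S _ hi]
    simp only [Function.update_self]
    congr 1
    refine Finset.prod_congr rfl fun j hj => ?_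
    rw [Function.update_of_ne (Finset.ne_of_mem_erase hj)]
  · refine Finset.prod_congr rfl fun j hj => ?_
    have : j ≠ i := fun h => hi (h ▸ hj)
    rw [Function.update_of_ne this]

lemma Dif_prodFn (a : Bool → ℝ) (S : Finset (Fin n)) (i : Fin n) (x : Fin n → Bool) :
    Dif (prodFn a S) i x =
      if i ∈ S then (a true - a false) / 2 * prodFn a (S.erase i) x else 0 := by
  unfold Dif
  rw [prodFn_update, prodFn_update]
  split_ifs <;> ring

lemma Dif_sum {ι : Type*} (s : Finset ι) (c : ι → ℝ) (h : ι → (Fin n → Bool) → ℝ) (i : Fin n)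
    (x : Fin n → Bool) :
    Dif (fun y => ∑ j ∈ s, c j * h j y) i x = ∑ j ∈ s, c j * Dif (h j) i x := by
  unfold Dif
  rw [← Finset.sum_sub_distrib, Finset.sum_div]
  refine Finset.sum_congr rfl fun j _ => ?_
  ring

/-- re-indexing of a sum over subsets containing `i` -/
lemma sum_mem_eq_sum_not_mem (i : Fin n) (G : Finset (Fin n) → ℝ) :
    ∑ S : Finset (Fin n), (if i ∈ S then G S else 0)
      = ∑ S : Finset (Fin n), (if i ∉ S then G (insert i S) else 0) := by
  rw [← Finset.sum_filter, ← Finset.sum_filter]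
  refine Finset.sum_nbij' (fun S => S.erase i) (fun S => insert i S) ?_ ?_ ?_ ?_ ?_
  · intro S hS
    simp
  · intro S hS
    simp
  · intro S hS
    have hi : i ∈ S := by simpa using hS
    exact Finset.insert_erase hi
  · intro S hS
    have hi : i ∉ S := by simpa using hS
    exact Finset.erase_insert hi
  · intro S hS
    have hi : i ∈ S := by simpa using hS
    rw [Finset.insert_erase hi]

section Biased

variable (t r : ℝ)

/-- normalized coordinate function of the biased measure -/
noncomputable def ph (b : Bool) : ℝ := (sg b - t) / r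

lemma ph_sub (hr : r ≠ 0) : (ph t r true - ph t r false) / 2 = 1 / r := by
  unfold ph
  simp only [sg_true, sg_false]
  field_simp
  ring

/-- orthonormality of the biased characters -/
lemma ph_orth (hr : r ≠ 0) (hr2 : r ^ 2 = 1 - t ^ 2) (S S' : Finset (Fin n)) :
    Et t (fun x => prodFn (ph t r) S x * prodFn (ph t r) S' x) = if S = S' then 1 else 0 := by
  have h1 : (fun x : Fin n → Bool => prodFn (ph t r) S x * prodFn (ph t r) S' x)
      = fun x => ∏ i, ((if i ∈ S then ph t r (x i) else 1) * (if i ∈ S' then ph t r (x i) else 1)) := by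
    funext x
    rw [prodFn_eq_prod_ite, prodFn_eq_prod_ite, Finset.prod_mul_distrib]
  rw [h1]
  have h2 := Et_prod (n := n) t
    (fun i b => (if i ∈ S then ph t r b else 1) * (if i ∈ S' then ph t r b else 1))
  rw [h2]
  have e0 : (1 + t) / 2 * ph t r true + (1 - t) / 2 * ph t r false = 0 := by
    unfold ph
    simp only [sg_true, sg_false]
    field_simp
    ring
  have e1 : (1 + t) / 2 * (ph t r true * ph t r true)
      + (1 - t) / 2 * (ph t r false * ph t r false) = 1 := by
    unfold ph
    simp only [sg_true, sg_false]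
    field_simp
    nlinarith [hr2]
  split_ifs with hS
  · subst hS
    refine Finset.prod_eq_one fun i _ => ?_
    by_cases hi : i ∈ S
    · simp only [hi, if_true]
      exact e1
    · simp only [hi, if_false]
      ring
  · obtain ⟨i, hi⟩ : ∃ i, ¬ (i ∈ S ↔ i ∈ S') := by
      by_contra hcon
      push Not at hcon
      exact hS (Finset.ext hcon)
    apply Finset.prod_eq_zero (Finset.mem_univ i)
    by_cases h3 : i ∈ S
    · have h4 : i ∉ S' := fun h => hi ⟨fun _ => h, fun _ => h3⟩
      simp only [h3, h4, if_true, if_false, mul_one]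
      exact e0
    · have h4 : i ∈ S' := by
        by_contra h5
        exact hi ⟨fun h => absurd h h3, fun h => absurd h h5⟩
      simp only [h3, h4, if_true, if_false, one_mul]
      exact e0

/-- expansion in the biased basis -/
noncomputable def expn (c : Finset (Fin n) → ℝ) (x : Fin n → Bool) : ℝ :=
  ∑ S : Finset (Fin n), c S * prodFn (ph t r) S x

lemma parseval (hr : r ≠ 0) (hr2 : r ^ 2 = 1 - t ^ 2) (c : Finset (Fin n) → ℝ) :
    Et t (fun x => expn t r c x * expn t r c x) = ∑ S, c S ^ 2 := by
  have h1 : (fun x => expn t r c x * expn t r c x)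
      = fun x => ∑ S : Finset (Fin n), ∑ S' : Finset (Fin n),
        (c S * c S') * (prodFn (ph t r) S x * prodFn (ph t r) S' x) := by
    funext x
    unfold expn
    rw [Finset.sum_mul_sum]
    refine Finset.sum_congr rfl fun S _ => Finset.sum_congr rfl fun S' _ => ?_
    ring
  rw [h1, Et_sum]
  refine Finset.sum_congr rfl fun S _ => ?_
  rw [Et_sum]
  simp_rw [Et_const_mul]
  simp_rw [ph_orth t r hr hr2]
  simp only [mul_ite, mul_one, mul_zero, Finset.sum_ite_eq, Finset.mem_univ, if_true]
  ring

lemma Et_expn (hr : r ≠ 0) (hr2 : r ^ 2 = 1 - t ^ 2) (c : Finset (Fin n) → ℝ) :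
    Et t (expn t r c) = c ∅ := by
  have h0 : ∀ S : Finset (Fin n), Et t (prodFn (ph t r) S) = if ∅ = S then 1 else 0 := by
    intro S
    have := ph_orth (n := n) t r hr hr2 ∅ S
    have e : (fun x => prodFn (ph t r) ∅ x * prodFn (ph t r) S x) = prodFn (ph t r) S := by
      funext x
      simp [prodFn]
    rwa [e] at this
  have h1 : expn t r c = fun x => ∑ S : Finset (Fin n), c S * prodFn (ph t r) S x := rfl
  rw [h1, Et_sum]
  simp_rw [Et_const_mul, h0]
  simp

/-- the derivative of an expansion -/
lemma Dif_expn (hr : r ≠ 0) (c : Finset (Fin n) → ℝ) (i : Fin n) (x : Fin n → Bool) :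
    Dif (expn t r c) i x =
      (1 / r) * expn t r (fun S => if i ∉ S then c (insert i S) else 0) x := by
  have h1 : expn t r c = fun y => ∑ S : Finset (Fin n), c S * prodFn (ph t r) S y := rfl
  rw [h1, Dif_sum]
  simp_rw [Dif_prodFn, ph_sub t r hr]
  have h2 : ∀ S : Finset (Fin n),
      c S * (if i ∈ S then 1 / r * prodFn (ph t r) (S.erase i) x else 0)
      = if i ∈ S then (1 / r) * (c S * prodFn (ph t r) (S.erase i) x) else 0 := by
    intro S
    split_ifs <;> ring
  simp_rw [h2]
  rw [sum_mem_eq_sum_not_mem i (fun S => (1 / r) * (c S * prodFn (ph t r) (S.erase i) x))]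
  unfold expn
  rw [Finset.mul_sum]
  refine Finset.sum_congr rfl fun S _ => ?_
  by_cases hi : i ∈ S
  · simp [hi]
  · simp [hi, Finset.erase_insert hi]

lemma sum_influence (hr : r ≠ 0) (hr2 : r ^ 2 = 1 - t ^ 2) (c : Finset (Fin n) → ℝ) :
    r ^ 2 * ∑ i : Fin n, Et t (fun x => Dif (expn t r c) i x * Dif (expn t r c) i x)
      = ∑ S : Finset (Fin n), (S.card : ℝ) * c S ^ 2 := by
  have h1 : ∀ i : Fin n, r ^ 2 * Et t (fun x => Dif (expn t r c) i x * Dif (expn t r c) i x)
      = ∑ S : Finset (Fin n), if i ∈ S then c S ^ 2 else 0 := by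
    intro i
    have h2 : (fun x => Dif (expn t r c) i x * Dif (expn t r c) i x)
        = fun x => (1 / r ^ 2) * (expn t r (fun S => if i ∉ S then c (insert i S) else 0) x
          * expn t r (fun S => if i ∉ S then c (insert i S) else 0) x) := by
      funext x
      rw [Dif_expn t r hr]
      field_simp
    rw [h2, Et_const_mul, parseval t r hr hr2]
    rw [sum_mem_eq_sum_not_mem i (fun S => c S ^ 2)]
    have h3 : ∀ S : Finset (Fin n), (if i ∉ S then c (insert i S) else 0) ^ 2
        = if i ∉ S then c (insert i S) ^ 2 else 0 := by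
      intro S
      split_ifs <;> simp
    simp_rw [h3]
    field_simp
  rw [Finset.mul_sum]
  simp_rw [h1]
  rw [Finset.sum_comm]
  refine Finset.sum_congr rfl fun S _ => ?_
  rw [Finset.sum_ite_mem]
  simp

lemma influence_bound (hr : r ≠ 0) (hr2 : r ^ 2 = 1 - t ^ 2) (d : ℕ) (c : Finset (Fin n) → ℝ)
    (hc : ∀ S, d < S.card → c S = 0) :
    r ^ 2 * ∑ i : Fin n, Et t (fun x => Dif (expn t r c) i x * Dif (expn t r c) i x)
      ≤ d * (Et t (fun x => expn t r c x * expn t r c x) - (Et t (expn t r c)) ^ 2) := by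
  rw [sum_influence t r hr hr2, parseval t r hr hr2, Et_expn t r hr hr2]
  have h1 : ∑ S : Finset (Fin n), c S ^ 2 - c ∅ ^ 2
      = ∑ S : Finset (Fin n), if S = ∅ then 0 else c S ^ 2 := by
    rw [Finset.sum_ite, Finset.sum_const_zero, zero_add]
    have : ∑ S : Finset (Fin n), c S ^ 2
        = c ∅ ^ 2 + ∑ S ∈ (Finset.univ.filter fun S : Finset (Fin n) => ¬ S = ∅), c S ^ 2 := by
      rw [← Finset.sum_filter_add_sum_filter_not Finset.univ (fun S : Finset (Fin n) => S = ∅)]
      congr 1
      rw [Finset.filter_eq' Finset.univ (∅ : Finset (Fin n))]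
      simp
    rw [this]
    ring
  rw [h1, Finset.mul_sum]
  refine Finset.sum_le_sum fun S _ => ?_
  by_cases hS : S = ∅
  · subst hS
    simp
  · simp only [hS, if_false]
    by_cases hd : d < S.card
    · rw [hc S hd]
      simp
    · push Not at hd
      have : (S.card : ℝ) ≤ d := by exact_mod_cast hd
      exact mul_le_mul_of_nonneg_right this (sq_nonneg _)

/-- existence of a low degree expansion in the biased basis -/
lemma exists_expn (hr : r ≠ 0) (f : (Fin n → Bool) → ℝ) (d : ℕ)
    (hdeg : ∀ S, d < S.card → fhat f S = 0) :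
    ∃ c : Finset (Fin n) → ℝ, (∀ x, f x = expn t r c x) ∧ ∀ S, d < S.card → c S = 0 := by
  refine ⟨fun S => ∑ T ∈ Finset.univ.filter (fun T : Finset (Fin n) => S ⊆ T),
    fhat f T * (r ^ S.card * t ^ (T \ S).card), ?_, ?_⟩
  · intro x
    have h1 : ∀ T : Finset (Fin n), chi T x
        = ∑ S ∈ T.powerset, (r ^ S.card * t ^ (T \ S).card) * prodFn (ph t r) S x := by
      intro T
      have h2 : ∀ i, sg (x i) = r * ph t r (x i) + t := by
        intro i
        unfold ph
        field_simp
        ring
      unfold chi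
      simp_rw [h2]
      rw [Finset.prod_add]
      refine Finset.sum_congr rfl fun S _ => ?_
      rw [Finset.prod_mul_distrib, Finset.prod_const, Finset.prod_const]
      unfold prodFn
      ring
    rw [fourier_inversion f x]
    simp_rw [h1]
    unfold expn
    simp_rw [Finset.mul_sum, Finset.sum_mul]
    rw [Finset.sum_comm' (s' := fun S : Finset (Fin n) => Finset.univ.filter (fun T => S ⊆ T))
      (t' := Finset.univ)]
    · refine Finset.sum_congr rfl fun S _ => Finset.sum_congr rfl fun T _ => ?_
      ring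
    · intro T S
      simp
  · intro S hS
    refine Finset.sum_eq_zero fun T hT => ?_
    have hST : S ⊆ T := by simpa using hT
    have : d < T.card := lt_of_lt_of_le hS (Finset.card_le_card hST)
    rw [hdeg T this]
    ring

end Biased

end Vale.Agent.helper2.P047
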