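import Vale.Agent.helper2.P047A

open Finset BigOperators Polynomial

namespace Vale.Agent.helper2.P047

variable {n : ℕ}

/-- The polynomial `g(t) = E_t f = ∑_T fhat T t^{|T|}`. -/
noncomputable def gp (f : (Fin n → Bool) → ℝ) : Polynomial ℝ :=
  ∑ T : Finset (Fin n), C (fhat f T) * X ^ T.card

lemma gp_eval (f : (Fin n → Bool) → ℝ) (t : ℝ) : (gp f).eval t = Et t f := by
  have h1 : f = fun x => ∑ T : Finset (Fin n), fhat f T * chi T x := by
    funext x
    exact fourier_inversion f x
  have h2 : Et t f = Et t (fun x => ∑ T : Finset (Fin n), fhat f T * chi T x) := by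
    rw [← h1]
  rw [h2, Et_sum]
  simp_rw [Et_const_mul, Et_chi]
  unfold gp
  rw [Polynomial.eval_finsetSum]
  simp

lemma gp_natDegree (f : (Fin n → Bool) → ℝ) (d : ℕ) (hdeg : ∀ S, d < S.card → fhat f S = 0) :
    (gp f).natDegree ≤ d := by
  unfold gp
  refine Polynomial.natDegree_sum_le_of_forall_le _ _ fun T _ => ?_
  by_cases h : d < T.card
  · rw [hdeg T h]
    simp
  · push Not at h
    exact le_trans (Polynomial.natDegree_C_mul_X_pow_le _ _) h

lemma gp_deriv_eval (f : (Fin n → Bool) → ℝ) (t : ℝ) :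
    (derivative (gp f)).eval t
      = ∑ T : Finset (Fin n), fhat f T * ((T.card : ℝ) * t ^ (T.card - 1)) := by
  unfold gp
  rw [Polynomial.derivative_sum, Polynomial.eval_finsetSum]
  refine Finset.sum_congr rfl fun T _ => ?_
  simp [Polynomial.derivative_X_pow]

lemma gp_deriv_zero (f : (Fin n → Bool) → ℝ) :
    (derivative (gp f)).eval 0 = ∑ i : Fin n, fhat f {i} := by
  rw [gp_deriv_eval]
  have h1 : ∀ T : Finset (Fin n), fhat f T * ((T.card : ℝ) * (0:ℝ) ^ (T.card - 1))
      = if T.card = 1 then fhat f T else 0 := by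
    intro T
    split_ifs with h
    · simp [h]
    · rcases Nat.eq_zero_or_pos T.card with h0 | h0
      · simp [h0]
      · have : T.card - 1 ≠ 0 := by omega
        simp [this]
  simp_rw [h1]
  rw [← Finset.sum_filter]
  symm
  refine Finset.sum_bij (fun i _ => ({i} : Finset (Fin n))) ?_ ?_ ?_ ?_
  · intro i _
    simp
  · intro i _ j _ h
    simpa using h
  · intro T hT
    have hT' : T.card = 1 := by simpa using hT
    obtain ⟨i, rfl⟩ := Finset.card_eq_one.mp hT'
    exact ⟨i, Finset.mem_univ _, rfl⟩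
  · intro i _
    rfl

lemma sum_Et_Dif (f : (Fin n → Bool) → ℝ) (t : ℝ) :
    ∑ i : Fin n, Et t (Dif f i) = (derivative (gp f)).eval t := by
  rw [gp_deriv_eval]
  have h1 : f = fun x => ∑ T : Finset (Fin n), fhat f T * chi T x := by
    funext x
    exact fourier_inversion f x
  have h2 : ∀ i : Fin n, Et t (Dif f i)
      = ∑ T : Finset (Fin n), fhat f T * (if i ∈ T then t ^ (T.card - 1) else 0) := by
    intro i
    have h3 : Dif f i = fun x => ∑ T : Finset (Fin n), fhat f T *
        (if i ∈ T then prodFn sg (T.erase i) x else 0) := by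
      funext x
      conv_lhs => rw [h1]
      rw [Dif_sum]
      refine Finset.sum_congr rfl fun T _ => ?_
      have : chi T = prodFn sg T := rfl
      rw [this, Dif_prodFn]
      simp only [sg_true, sg_false]
      split_ifs <;> ring
    rw [h3, Et_sum]
    refine Finset.sum_congr rfl fun T _ => ?_
    rw [Et_const_mul]
    congr 1
    split_ifs with hi
    · have : prodFn sg (T.erase i) = chi (T.erase i) := rfl
      rw [this, Et_chi, Finset.card_erase_of_mem hi]
    · simp [Et]
  simp_rw [h2]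
  rw [Finset.sum_comm]
  refine Finset.sum_congr rfl fun T _ => ?_
  rw [← Finset.mul_sum]
  congr 1
  rw [Finset.sum_ite_mem]
  simp

lemma Dif_abs (f : (Fin n → Bool) → ℝ) (hf : ∀ x, f x = 1 ∨ f x = -1) (i : Fin n)
    (x : Fin n → Bool) : |Dif f i x| = Dif f i x * Dif f i x := by
  unfold Dif
  rcases hf (Function.update x i true) with h1 | h1 <;>
  rcases hf (Function.update x i false) with h2 | h2 <;>
  rw [h1, h2] <;> norm_num

lemma wt_nonneg (t : ℝ) (h1 : -1 ≤ t) (h2 : t ≤ 1) (x : Fin n → Bool) : 0 ≤ wt t x := by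
  unfold wt
  refine Finset.prod_nonneg fun i _ => ?_
  cases x i <;> simp [sg] <;> linarith

lemma wt_pos (t : ℝ) (h1 : -1 < t) (h2 : t < 1) (x : Fin n → Bool) : 0 < wt t x := by
  unfold wt
  refine Finset.prod_pos fun i _ => ?_
  cases x i <;> simp [sg] <;> linarith

lemma abs_Et_le (t : ℝ) (h1 : -1 ≤ t) (h2 : t ≤ 1) (h : (Fin n → Bool) → ℝ) :
    |Et t h| ≤ Et t (fun x => |h x|) := by
  unfold Et
  refine le_trans (Finset.abs_sum_le_sum_abs _ _) (le_of_eq ?_)
  refine Finset.sum_congr rfl fun x _ => ?_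
  rw [abs_mul, abs_of_nonneg (wt_nonneg t h1 h2 x)]

lemma Et_sq_of_bool (f : (Fin n → Bool) → ℝ) (hf : ∀ x, f x = 1 ∨ f x = -1) (t : ℝ) :
    Et t (fun x => f x * f x) = 1 := by
  have : (fun x => f x * f x) = fun _ => (1:ℝ) := by
    funext x
    rcases hf x with h | h <;> rw [h] <;> norm_num
  rw [this, Et_one]

/-- The key differential inequality (biased Nisan-Szegedy). -/
lemma main_diff (f : (Fin n → Bool) → ℝ) (hf : ∀ x, f x = 1 ∨ f x = -1) (d : ℕ)
    (hdeg : ∀ S, d < S.card → fhat f S = 0) (t : ℝ) (ht1 : -1 < t) (ht2 : t < 1) :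
    (1 - t ^ 2) * |(derivative (gp f)).eval t| ≤ d * (1 - ((gp f).eval t) ^ 2) := by
  have hpos : 0 < 1 - t ^ 2 := by nlinarith
  set r := Real.sqrt (1 - t ^ 2) with hrdef
  have hr : r ≠ 0 := (Real.sqrt_pos.mpr hpos).ne'
  have hr2 : r ^ 2 = 1 - t ^ 2 := Real.sq_sqrt hpos.le
  obtain ⟨c, hc1, hc2⟩ := exists_expn t r hr f d hdeg
  have hfc : f = expn t r c := funext hc1
  have hb := influence_bound t r hr hr2 d c hc2
  rw [← hfc, Et_sq_of_bool f hf] at hb
  rw [gp_eval, ← hr2]
  refine le_trans ?_ hb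
  apply mul_le_mul_of_nonneg_left _ (sq_nonneg r)
  rw [← sum_Et_Dif]
  refine le_trans (Finset.abs_sum_le_sum_abs _ _) ?_
  refine Finset.sum_le_sum fun i _ => ?_
  refine le_trans (abs_Et_le t ht1.le ht2.le _) (le_of_eq ?_)
  congr 1
  funext x
  exact Dif_abs f hf i x

lemma gp_abs_le (f : (Fin n → Bool) → ℝ) (hf : ∀ x, f x = 1 ∨ f x = -1) (t : ℝ)
    (h1 : -1 ≤ t) (h2 : t ≤ 1) : |(gp f).eval t| ≤ 1 := by
  rw [gp_eval]
  refine le_trans (abs_Et_le t h1 h2 f) (le_of_eq ?_)
  have : (fun x => |f x|) = fun _ => (1:ℝ) := by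
    funext x
    rcases hf x with h | h <;> rw [h] <;> norm_num
  rw [this, Et_one]

lemma sum_wt (t : ℝ) : ∑ x : Fin n → Bool, wt t x = 1 := by
  simpa [Et] using Et_one (n := n) t

lemma gp_lt_one (f : (Fin n → Bool) → ℝ) (hf : ∀ x, f x = 1 ∨ f x = -1) (t : ℝ)
    (h1 : -1 < t) (h2 : t < 1) (x0 : Fin n → Bool) (hx0 : f x0 = -1) : (gp f).eval t < 1 := by
  rw [gp_eval]
  have h3 : (1:ℝ) - Et t f = ∑ x, wt t x * (1 - f x) := by
    unfold Et
    simp_rw [mul_sub, mul_one]
    rw [Finset.sum_sub_distrib, sum_wt]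
  have h4 : 0 < ∑ x, wt t x * (1 - f x) := by
    refine Finset.sum_pos' (fun x _ => ?_) ⟨x0, Finset.mem_univ _, ?_⟩
    · refine mul_nonneg (wt_nonneg t h1.le h2.le x) ?_
      rcases hf x with h | h <;> rw [h] <;> norm_num
    · rw [hx0]
      have := wt_pos t h1 h2 x0
      nlinarith
  linarith

lemma gp_gt_neg_one (f : (Fin n → Bool) → ℝ) (hf : ∀ x, f x = 1 ∨ f x = -1) (t : ℝ)
    (h1 : -1 < t) (h2 : t < 1) (x0 : Fin n → Bool) (hx0 : f x0 = 1) : -1 < (gp f).eval t := by
  rw [gp_eval]
  have h3 : (1:ℝ) + Et t f = ∑ x, wt t x * (1 + f x) := by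
    unfold Et
    simp_rw [mul_add, mul_one]
    rw [Finset.sum_add_distrib, sum_wt]
  have h4 : 0 < ∑ x, wt t x * (1 + f x) := by
    refine Finset.sum_pos' (fun x _ => ?_) ⟨x0, Finset.mem_univ _, ?_⟩
    · refine mul_nonneg (wt_nonneg t h1.le h2.le x) ?_
      rcases hf x with h | h <;> rw [h] <;> norm_num
    · rw [hx0]
      have := wt_pos t h1 h2 x0
      nlinarith
  linarith

/-- integration of the differential inequality -/
lemma ode_bound (p : Polynomial ℝ) (d : ℕ) (T : ℝ) (hT0 : 0 < T) (hT1 : T < 1)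
    (hlt : ∀ t, -1 < t → t < 1 → |p.eval t| < 1)
    (hineq : ∀ t, -1 < t → t < 1 →
      (1 - t ^ 2) * |(derivative p).eval t| ≤ d * (1 - (p.eval t) ^ 2)) :
    (1 + p.eval T) * (1 - p.eval (-T))
      ≤ ((1 - p.eval T) * (1 + p.eval (-T))) * ((1 + T) / (1 - T)) ^ (2 * d) := by
  set g : ℝ → ℝ := fun t => p.eval t with hg
  set L : ℝ → ℝ := fun t => Real.log (1 + g t) - Real.log (1 - g t)
    - d * Real.log (1 + t) + d * Real.log (1 - t) with hL
  have hmem : ∀ t ∈ Set.Icc (-T) T, -1 < t ∧ t < 1 := by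
    intro t ht
    constructor
    · linarith [ht.1]
    · linarith [ht.2]
  have hderiv : ∀ t, -1 < t → t < 1 → HasDerivAt L
      ((derivative p).eval t * (1 / (1 + g t)) - (-(derivative p).eval t) * (1 / (1 - g t))
        - d * (1 * (1 / (1 + t))) + d * ((-1) * (1 / (1 - t)))) t := by
    intro t h1 h2
    have hgt := abs_lt.mp (hlt t h1 h2)
    have hg' : HasDerivAt g ((derivative p).eval t) t := p.hasDerivAt t
    have a1 : HasDerivAt (fun s => Real.log (1 + g s))
        ((derivative p).eval t * (1 / (1 + g t))) t := by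
      have := (hg'.const_add 1).log (by simp only [hg]; linarith)
      convert this using 1
      field_simp
    have a2 : HasDerivAt (fun s => Real.log (1 - g s))
        ((-(derivative p).eval t) * (1 / (1 - g t))) t := by
      have := (hg'.const_sub 1).log (by simp only [hg]; linarith)
      convert this using 1
      field_simp
    have a3 : HasDerivAt (fun s => Real.log (1 + s)) (1 * (1 / (1 + t))) t := by
      have := ((hasDerivAt_id' t).const_add 1).log (by linarith)
      convert this using 1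
      ring
    have a4 : HasDerivAt (fun s => Real.log (1 - s)) ((-1) * (1 / (1 - t))) t := by
      have := ((hasDerivAt_id' t).const_sub 1).log (by linarith)
      convert this using 1
      ring
    exact ((a1.sub a2).sub (a3.const_mul _)).add (a4.const_mul _)
  have hanti : AntitoneOn L (Set.Icc (-T) T) := by
    apply antitoneOn_of_deriv_nonpos (convex_Icc _ _)
    · intro t ht
      obtain ⟨h1, h2⟩ := hmem t ht
      exact (hderiv t h1 h2).continuousAt.continuousWithinAt
    · intro t ht
      rw [interior_Icc] at ht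
      have h1 : -1 < t := by linarith [ht.1]
      have h2 : t < 1 := by linarith [ht.2]
      exact (hderiv t h1 h2).differentiableAt.differentiableWithinAt
    · intro t ht
      rw [interior_Icc] at ht
      have h1 : -1 < t := by linarith [ht.1]
      have h2 : t < 1 := by linarith [ht.2]
      rw [(hderiv t h1 h2).deriv]
      have hgt := abs_lt.mp (hlt t h1 h2)
      have hi := hineq t h1 h2
      have hp1 : 0 < 1 + g t := by simp only [hg]; linarith
      have hp2 : 0 < 1 - g t := by simp only [hg]; linarith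
      have hp3 : 0 < 1 + t := by linarith
      have hp4 : 0 < 1 - t := by linarith
      have hdd : (1 - t ^ 2) * (derivative p).eval t ≤ d * (1 - (g t) ^ 2) := by
        refine le_trans ?_ hi
        apply mul_le_mul_of_nonneg_left (le_abs_self _)
        nlinarith
      have e : (derivative p).eval t * (1 / (1 + g t)) - (-(derivative p).eval t) * (1 / (1 - g t))
          - d * (1 * (1 / (1 + t))) + d * ((-1) * (1 / (1 - t)))
          = 2 * ((1 - t ^ 2) * (derivative p).eval t - d * (1 - (g t) ^ 2))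
            / ((1 + g t) * (1 - g t) * ((1 + t) * (1 - t))) := by
        field_simp
        ring
      rw [e]
      apply div_nonpos_of_nonpos_of_nonneg
      · linarith
      · positivity
  have hL' : L T ≤ L (-T) := hanti (Set.left_mem_Icc.mpr (by linarith))
    (Set.right_mem_Icc.mpr (by linarith)) (by linarith)
  have hbT := abs_lt.mp (hlt T (by linarith) hT1)
  have haT := abs_lt.mp (hlt (-T) (by linarith) (by linarith))
  set b := p.eval T with hb
  set a := p.eval (-T) with ha
  have hgb : g T = b := rfl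
  have hga : g (-T) = a := rfl
  simp only [hL, hgb, hga] at hL'
  have pA : 0 < 1 + b := by linarith
  have pB : 0 < 1 - b := by linarith
  have pC : 0 < 1 + a := by linarith
  have pE : 0 < 1 - a := by linarith
  have pP : 0 < 1 + T := by linarith
  have pQ : 0 < 1 - T := by linarith
  have e1 : (1 + -T) = 1 - T := by ring
  have e2 : (1 - -T) = 1 + T := by ring
  rw [e1, e2] at hL'
  have key : Real.log ((1 + b) * (1 - a))
      ≤ Real.log (((1 - b) * (1 + a)) * ((1 + T) / (1 - T)) ^ (2 * d)) := by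
    rw [Real.log_mul pA.ne' pE.ne', Real.log_mul (by positivity) (by positivity),
      Real.log_mul pB.ne' pC.ne', Real.log_pow, Real.log_div pP.ne' pQ.ne']
    push_cast
    nlinarith [hL']
  exact (Real.log_le_log_iff (by positivity) (by positivity)).mp key

/-- Elementary consequence of the exponentiated inequality. -/
lemma sigma_bound (u v K : ℝ) (hu : 0 < u) (hv : 0 < v) (hK : 1 ≤ K)
    (h : (2 - u) * (2 - v) ≤ (u * v) * K ^ 2) : 4 / (K + 1) ≤ u + v := by
  rw [div_le_iff₀ (by linarith)]
  by_contra hcon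
  push Not at hcon
  have hs : 0 < u + v := by linarith
  have huv : u * v ≤ (u + v) ^ 2 / 4 := by nlinarith [sq_nonneg (u - v)]
  have h2 : 4 - 2 * (u + v) ≤ (K ^ 2 - 1) * (u * v) := by nlinarith
  have h3 : (K ^ 2 - 1) * (u * v) ≤ (K ^ 2 - 1) * ((u + v) ^ 2 / 4) :=
    mul_le_mul_of_nonneg_left huv (by nlinarith)
  have h4 : (K ^ 2 - 1) * ((u + v) ^ 2 / 4) = (K - 1) * (u + v) * (((u + v) * (K + 1)) / 4) := by
    ring
  have h5 : (K - 1) * (u + v) * (((u + v) * (K + 1)) / 4) ≤ (K - 1) * (u + v) := by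
    have : ((u + v) * (K + 1)) / 4 ≤ 1 := by linarith
    have h6 : 0 ≤ (K - 1) * (u + v) := by
      apply mul_nonneg <;> linarith
    nlinarith
  have h7 : 4 - 2 * (u + v) ≤ (K - 1) * (u + v) := by linarith
  nlinarith

end Vale.Agent.helper2.P047
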