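import Vale.Agent.helper2.P047B

open Finset BigOperators Polynomial Complex

namespace Vale.Agent.helper2.P047

/-- the nodes of M. Riesz's interpolation formula -/
noncomputable def xk (d k : ℕ) : ℝ := (2 * k + 1) * Real.pi / (2 * d)

/-- the weights of M. Riesz's interpolation formula -/
noncomputable def wk (d k : ℕ) : ℝ := 1 / (2 * d * (1 - Real.cos (xk d k)))

/-- the points on the unit circle -/
noncomputable def zk (d k : ℕ) : ℂ := Complex.exp ((xk d k : ℂ) * I)

lemma zk_ne_zero (d k : ℕ) : zk d k ≠ 0 := Complex.exp_ne_zero _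

lemma zk_pow_d (d k : ℕ) (hd : d ≠ 0) : zk d k ^ d = (-1) ^ k * I := by
  unfold zk
  rw [← Complex.exp_nat_mul]
  have hd' : (d : ℂ) ≠ 0 := by exact_mod_cast hd
  have h1 : (d : ℂ) * ((xk d k : ℂ) * I) = (k : ℂ) * (Real.pi * I) + (Real.pi / 2 * I) := by
    unfold xk
    push_cast
    field_simp
  rw [h1, Complex.exp_add, Complex.exp_nat_mul, Complex.exp_pi_mul_I]
  congr 1
  rw [show ((Real.pi : ℂ) / 2 * I) = ((Real.pi / 2 : ℝ) : ℂ) * I by push_cast; ring]
  rw [Complex.exp_ofReal_mul_I]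
  simp

lemma zk_pow_two_d (d k : ℕ) (hd : d ≠ 0) : zk d k ^ (2 * d) = -1 := by
  rw [mul_comm, pow_mul, zk_pow_d d k hd, mul_pow, I_sq, ← pow_mul]
  simp

lemma xk_pos (d k : ℕ) (hd : d ≠ 0) : 0 < xk d k := by
  unfold xk
  have : 0 < (d : ℝ) := by exact_mod_cast Nat.pos_of_ne_zero hd
  have := Real.pi_pos
  positivity

lemma xk_lt (d k : ℕ) (hd : d ≠ 0) (hk : k < 2 * d) : xk d k < 2 * Real.pi := by
  unfold xk
  have h0 : 0 < (d : ℝ) := by exact_mod_cast Nat.pos_of_ne_zero hd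
  have h1 : (2 * (k : ℝ) + 1) < 2 * (2 * d) := by
    have : (k : ℝ) + 1 ≤ 2 * d := by exact_mod_cast hk
    linarith
  rw [div_lt_iff₀ (by positivity)]
  nlinarith [Real.pi_pos]

lemma zk_ne_one (d k : ℕ) (hd : d ≠ 0) (hk : k < 2 * d) : zk d k ≠ 1 := by
  unfold zk
  intro h
  rw [Complex.exp_eq_one_iff] at h
  obtain ⟨m, hm⟩ := h
  have hI : (I : ℂ) ≠ 0 := I_ne_zero
  have h2 : (xk d k : ℂ) = ((m : ℝ) * (2 * Real.pi) : ℝ) := by
    push_cast
    have : ((xk d k : ℂ) - (m : ℂ) * (2 * Real.pi)) * I = 0 := by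
      rw [sub_mul, hm]
      ring
    have := (mul_eq_zero.mp this).resolve_right hI
    linear_combination this
  have h3 : xk d k = (m : ℝ) * (2 * Real.pi) := by exact_mod_cast h2
  have h4 := xk_pos d k hd
  have h5 := xk_lt d k hd hk
  rw [h3] at h4 h5
  have hp := Real.pi_pos
  have m_pos : (0 : ℝ) < m := by
    by_contra hcon
    push Not at hcon
    nlinarith
  have m_lt : (m : ℝ) < 1 := by
    by_contra hcon
    push Not at hcon
    nlinarith
  have a1 : (0 : ℤ) < m := by exact_mod_cast m_pos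
  have a2 : m < (1 : ℤ) := by exact_mod_cast m_lt
  omega

lemma one_sub_zk_ne (d k : ℕ) (hd : d ≠ 0) (hk : k < 2 * d) : 1 - zk d k ≠ 0 :=
  sub_ne_zero.mpr (zk_ne_one d k hd hk).symm

/-- power sums of the points -/
lemma power_sum (d m : ℕ) (hd : d ≠ 0) (h1 : 1 ≤ m) (h2 : m < 2 * d) :
    ∑ k ∈ range (2 * d), zk d k ^ m = 0 := by
  have h2d : 2 * d ≠ 0 := by omega
  set ω : ℂ := Complex.exp (2 * Real.pi * I / ((2 * d : ℕ) : ℂ)) with hω
  have hprim : IsPrimitiveRoot ω (2 * d) := Complex.isPrimitiveRoot_exp (2 * d) h2d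
  have hzk : ∀ k, zk d k = zk d 0 * ω ^ k := by
    intro k
    unfold zk
    rw [hω, ← Complex.exp_nat_mul, ← Complex.exp_add]
    congr 1
    unfold xk
    have hd' : (d : ℂ) ≠ 0 := by exact_mod_cast hd
    push_cast
    field_simp
    ring
  have h3 : ∀ k, zk d k ^ m = zk d 0 ^ m * (ω ^ m) ^ k := by
    intro k
    rw [hzk k, mul_pow, ← pow_mul, ← pow_mul, mul_comm k m]
  rw [Finset.sum_congr rfl (fun k _ => h3 k), ← Finset.mul_sum]
  have hne : ω ^ m ≠ 1 := hprim.pow_ne_one_of_pos_of_lt (by omega) h2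
  rw [geom_sum_eq hne]
  have : (ω ^ m) ^ (2 * d) = 1 := by
    rw [← pow_mul, mul_comm, pow_mul, hprim.pow_eq_one, one_pow]
  rw [this]
  simp

/-- the sums in the proof of M. Riesz's formula -/
noncomputable def SS (d m : ℕ) : ℂ := ∑ k ∈ range (2 * d), zk d k ^ m / (1 - zk d k) ^ 2

lemma SS_rec (d m : ℕ) (hd : d ≠ 0) :
    SS d m - 2 * SS d (m + 1) + SS d (m + 2) = ∑ k ∈ range (2 * d), zk d k ^ m := by
  unfold SS
  rw [Finset.mul_sum, ← Finset.sum_sub_distrib, ← Finset.sum_add_distrib]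
  refine Finset.sum_congr rfl fun k hk => ?_
  have := one_sub_zk_ne d k hd (Finset.mem_range.mp hk)
  field_simp
  ring

lemma SS_shift (d m : ℕ) (hd : d ≠ 0) : SS d (m + 2 * d) = - SS d m := by
  unfold SS
  rw [← Finset.sum_neg_distrib]
  refine Finset.sum_congr rfl fun k _ => ?_
  rw [pow_add, zk_pow_two_d d k hd]
  ring

lemma SS_linear (d : ℕ) (hd : d ≠ 0) (j : ℕ) (hj : j ≤ 2 * d) :
    SS d (1 + j) = SS d 1 + j * (SS d 2 - SS d 1) := by
  induction j using Nat.strong_induction_on with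
  | _ j ih =>
    match j, hj, ih with
    | 0, _, _ =>
      show SS d 1 = _
      push_cast
      ring
    | 1, _, _ =>
      show SS d 2 = _
      push_cast
      ring
    | (i + 2), hi, ih =>
      have h1 := ih i (by omega) (by omega)
      have h2 := ih (i + 1) (by omega) (by omega)
      have h3 := SS_rec d (1 + i) hd
      rw [power_sum d (1 + i) hd (by omega) (by omega)] at h3
      have e1 : 1 + i + 1 = 1 + (i + 1) := by ring
      have e2 : 1 + i + 2 = 1 + (i + 2) := by ring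
      rw [e1, e2] at h3
      push_cast at h1 h2 ⊢
      linear_combination h3 - h1 + 2 * h2

lemma SS_value (d m : ℕ) (hd : d ≠ 0) (h1 : 1 ≤ m) (h2 : m ≤ 2 * d + 1) :
    SS d m = d * ((m : ℂ) - 1 - d) := by
  have hd' : (d : ℂ) ≠ 0 := by exact_mod_cast hd
  have L := fun j hj => SS_linear d hd j hj
  set S1 := SS d 1 with hS1
  set δ := SS d 2 - S1 with hδ
  have s1 : SS d (1 + 2 * d) = S1 + ((2 * d : ℕ) : ℂ) * δ := L (2 * d) le_rfl
  have s2 : SS d (1 + (2 * d - 1)) = S1 + ((2 * d - 1 : ℕ) : ℂ) * δ := L (2 * d - 1) (by omega)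
  have s3 : SS d (1 + 2 * d) = - S1 := SS_shift d 1 hd
  have s4 : SS d (2 + 2 * d) = - SS d 2 := SS_shift d 2 hd
  have s5 := SS_rec d (2 * d) hd
  have s6 : ∑ k ∈ range (2 * d), zk d k ^ (2 * d) = - (2 * d : ℂ) := by
    simp_rw [zk_pow_two_d d _ hd]
    simp
  rw [s6] at s5
  have e1 : 1 + (2 * d - 1) = 2 * d := by omega
  have e2 : 2 * d + 1 = 1 + 2 * d := by ring
  have e3 : 2 * d + 2 = 2 + 2 * d := by ring
  rw [e1] at s2
  rw [e2, e3, s2, s1, s4] at s5
  have e4 : ((2 * d - 1 : ℕ) : ℂ) = 2 * d - 1 := by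
    have : 1 ≤ 2 * d := by omega
    push_cast [Nat.cast_sub this]
    ring
  rw [e4] at s5
  have e5 : ((2 * d : ℕ) : ℂ) = 2 * d := by push_cast; ring
  rw [e5] at s1 s5
  have h3 : S1 = - (d : ℂ) * δ := by
    have : S1 + (2 * d : ℂ) * δ = - S1 := by rw [← s1, s3]
    linear_combination (1 / 2 : ℂ) * this
  have h4 : SS d 2 = S1 + δ := by rw [hδ]; ring
  rw [h4] at s5
  have h5 : δ = d := by
    rw [h3] at s5
    linear_combination (-1 / 2 : ℂ) * s5
  obtain ⟨j, rfl⟩ : ∃ j, m = 1 + j := ⟨m - 1, by omega⟩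
  rw [L j (by omega), h3, h5]
  push_cast
  ring

lemma sum_zk_div (d e : ℕ) (hd : d ≠ 0) (he : e ≤ 2 * d) :
    ∑ k ∈ range (2 * d), zk d k * zk d k ^ e / (1 - zk d k) ^ 2 = d * ((e : ℂ) - d) := by
  have := SS_value d (e + 1) hd (by omega) (by omega)
  unfold SS at this
  have h2 : ∑ k ∈ range (2 * d), zk d k * zk d k ^ e / (1 - zk d k) ^ 2
      = ∑ k ∈ range (2 * d), zk d k ^ (e + 1) / (1 - zk d k) ^ 2 := by
    refine Finset.sum_congr rfl fun k _ => ?_
    rw [pow_succ' (zk d k) e]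
  rw [h2, this]
  push_cast
  ring

/-- The algebraic form of M. Riesz's interpolation formula. -/
lemma riesz_poly (d : ℕ) (hd : d ≠ 0) (H : Polynomial ℂ) (hH : H.natDegree ≤ 2 * d) :
    ∑ k ∈ range (2 * d), zk d k * H.eval (zk d k) / (1 - zk d k) ^ 2
      = d * ((derivative H).eval 1 - d * H.eval 1) := by
  have hn : H.natDegree < 2 * d + 1 := by omega
  have h1 : ∀ z : ℂ, H.eval z = ∑ e ∈ range (2 * d + 1), H.coeff e * z ^ e := fun z =>
    Polynomial.eval_eq_sum_range' hn z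
  have h2 : (derivative H).eval 1 = ∑ e ∈ range (2 * d + 1), H.coeff e * (e : ℂ) := by
    have h3 : H = ∑ e ∈ range (2 * d + 1), monomial e (H.coeff e) := H.as_sum_range' _ hn
    conv_lhs => rw [h3]
    rw [Polynomial.derivative_sum, Polynomial.eval_finsetSum]
    refine Finset.sum_congr rfl fun e _ => ?_
    rw [Polynomial.derivative_monomial, Polynomial.eval_monomial]
    simp
  rw [h2, h1 1]
  simp_rw [h1]
  have h4 : ∀ k, zk d k * (∑ e ∈ range (2 * d + 1), H.coeff e * zk d k ^ e) / (1 - zk d k) ^ 2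
      = ∑ e ∈ range (2 * d + 1), H.coeff e * (zk d k * zk d k ^ e / (1 - zk d k) ^ 2) := by
    intro k
    rw [Finset.mul_sum, Finset.sum_div]
    refine Finset.sum_congr rfl fun e _ => ?_
    ring
  simp_rw [h4]
  rw [Finset.sum_comm]
  simp_rw [← Finset.mul_sum]
  have h5 : ∀ e ∈ range (2 * d + 1), H.coeff e *
      ∑ k ∈ range (2 * d), zk d k * zk d k ^ e / (1 - zk d k) ^ 2
      = H.coeff e * ((d : ℂ) * ((e : ℂ) - d)) := by
    intro e he
    rw [sum_zk_div d e hd (by have := Finset.mem_range.mp he; omega)]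
  rw [Finset.sum_congr rfl h5]
  simp only [one_pow, mul_one]
  have h6 : (∑ e ∈ range (2 * d + 1), H.coeff e * (e : ℂ)) - (d : ℂ) * ∑ e ∈ range (2 * d + 1), H.coeff e
      = ∑ e ∈ range (2 * d + 1), (H.coeff e * (e : ℂ) - (d : ℂ) * H.coeff e) := by
    rw [Finset.sum_sub_distrib, Finset.mul_sum]
  rw [h6, Finset.mul_sum]
  refine Finset.sum_congr rfl fun e _ => ?_
  ring

lemma cexp_cos (x : ℝ) : Complex.cos (x : ℂ)
    = (Complex.exp ((x : ℂ) * I) + (Complex.exp ((x : ℂ) * I))⁻¹) / 2 := by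
  rw [Complex.cos, ← Complex.exp_neg]
  congr 3
  ring

lemma cexp_sin (x : ℝ) : Complex.sin (x : ℂ)
    = (Complex.exp ((x : ℂ) * I) - (Complex.exp ((x : ℂ) * I))⁻¹) / (2 * I) := by
  rw [Complex.sin, ← Complex.exp_neg]
  have e : -((x : ℂ) * I) = -(x : ℂ) * I := by ring
  rw [e]
  field_simp
  rw [I_sq]
  ring

/-- The weight in terms of the point on the circle. -/
lemma wk_complex (d k : ℕ) (hd : d ≠ 0) (hk : k < 2 * d) :
    ((wk d k : ℝ) : ℂ) = - zk d k / ((d : ℂ) * (1 - zk d k) ^ 2) := by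
  have hd' : (d : ℂ) ≠ 0 := by exact_mod_cast hd
  have hz := zk_ne_zero d k
  have h1 := one_sub_zk_ne d k hd hk
  unfold wk
  push_cast
  rw [cexp_cos]
  change 1 / (2 * (d : ℂ) * (1 - (zk d k + (zk d k)⁻¹) / 2)) = _
  have h2 : 1 - (zk d k + (zk d k)⁻¹) / 2 = - (1 - zk d k) ^ 2 / (2 * zk d k) := by
    field_simp
    ring
  rw [h2]
  field_simp

lemma sign_complex (d k : ℕ) (hd : d ≠ 0) : ((-1 : ℂ)) ^ k = - I * zk d k ^ d := by
  rw [zk_pow_d d k hd]
  have : - I * ((-1) ^ k * I) = (-1) ^ k * (- (I * I)) := by ring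
  rw [this, I_mul_I]
  simp

/-- the polynomial associated to the monomial `t ^ m` -/
noncomputable def Hm (d m : ℕ) : Polynomial ℂ := X ^ (d - m) * (X ^ 2 - 1) ^ m

lemma Hm_natDegree (d m : ℕ) (hm : m ≤ d) : (Hm d m).natDegree ≤ 2 * d := by
  unfold Hm
  refine le_trans Polynomial.natDegree_mul_le ?_
  have h1 : (X ^ (d - m) : Polynomial ℂ).natDegree ≤ d - m := Polynomial.natDegree_X_pow_le _
  have h2 : ((X ^ 2 - 1 : Polynomial ℂ) ^ m).natDegree ≤ m * 2 := by
    refine le_trans (Polynomial.natDegree_pow_le) ?_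
    apply Nat.mul_le_mul_left
    have : (X ^ 2 - 1 : Polynomial ℂ).natDegree = 2 := by
      have := Polynomial.natDegree_X_pow_sub_C (R := ℂ) (n := 2) (r := 1)
      simpa using this
    omega
  omega

lemma Hm_eval_one (d m : ℕ) : (Hm d m).eval 1 = if m = 0 then 1 else 0 := by
  unfold Hm
  simp only [eval_mul, eval_pow, eval_X, eval_sub, eval_one, one_pow, one_mul]
  split_ifs with h
  · subst h
    simp
  · norm_num
    exact h

lemma Hm_deriv_eval_one (d m : ℕ) (hm : m ≤ d) :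
    (derivative (Hm d m)).eval 1 = if m = 0 then (d : ℂ) else if m = 1 then 2 else 0 := by
  unfold Hm
  rw [derivative_mul]
  simp only [derivative_pow, derivative_X, derivative_sub, derivative_one, eval_add, eval_mul,
    eval_pow, eval_X, eval_sub, eval_one, one_pow, one_mul]
  rcases Nat.eq_zero_or_pos m with h0 | h0
  · subst h0
    simp
  · have hm0 : m ≠ 0 := by omega
    rw [if_neg hm0]
    by_cases h1 : m = 1
    · subst h1
      simp
    · rw [if_neg h1]
      have hm1 : m - 1 ≠ 0 := by omega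
      simp [hm0, hm1]

/-- M. Riesz's formula on monomials. -/
lemma riesz_mono (d m : ℕ) (hd : d ≠ 0) (hm : m ≤ d) :
    ∑ k ∈ range (2 * d), (-1 : ℝ) ^ k * wk d k * Real.sin (xk d k) ^ m
      = if m = 1 then 1 else 0 := by
  have hd' : (d : ℂ) ≠ 0 := by exact_mod_cast hd
  have key : ((∑ k ∈ range (2 * d), (-1 : ℝ) ^ k * wk d k * Real.sin (xk d k) ^ m : ℝ) : ℂ)
      = ((if m = 1 then (1 : ℝ) else 0 : ℝ) : ℂ) := by
    push_cast
    have h1 : ∀ k ∈ range (2 * d), (-1 : ℂ) ^ k * (wk d k : ℂ) * (Complex.sin (xk d k)) ^ m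
        = (I / d) * (1 / (2 * I) ^ m) *
          (zk d k * (Hm d m).eval (zk d k) / (1 - zk d k) ^ 2) := by
      intro k hk
      have hk' := Finset.mem_range.mp hk
      have hz := zk_ne_zero d k
      have h2 := one_sub_zk_ne d k hd hk'
      rw [wk_complex d k hd hk', sign_complex d k hd, cexp_sin]
      change (- I * zk d k ^ d) * (- zk d k / ((d : ℂ) * (1 - zk d k) ^ 2))
        * ((zk d k - (zk d k)⁻¹) / (2 * I)) ^ m = _
      have h3 : (Hm d m).eval (zk d k) = zk d k ^ (d - m) * (zk d k ^ 2 - 1) ^ m := by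
        unfold Hm
        simp
      rw [h3]
      have h4 : zk d k ^ d = zk d k ^ (d - m) * zk d k ^ m := by
        rw [← pow_add]
        congr 1
        omega
      have h5 : ((zk d k - (zk d k)⁻¹) / (2 * I)) ^ m * zk d k ^ m
          = (zk d k ^ 2 - 1) ^ m / (2 * I) ^ m := by
        rw [div_pow, div_mul_eq_mul_div, ← mul_pow]
        congr 2
        field_simp
      have hI : (2 * I) ^ m ≠ 0 := pow_ne_zero _ (mul_ne_zero two_ne_zero I_ne_zero)
      rw [h4]
      calc (- I * (zk d k ^ (d - m) * zk d k ^ m)) * (- zk d k / ((d : ℂ) * (1 - zk d k) ^ 2))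
            * ((zk d k - (zk d k)⁻¹) / (2 * I)) ^ m
          = (I / d) * (zk d k * zk d k ^ (d - m) / (1 - zk d k) ^ 2)
            * (((zk d k - (zk d k)⁻¹) / (2 * I)) ^ m * zk d k ^ m) := by
            field_simp
        _ = _ := by
            rw [h5]
            field_simp
    rw [Finset.sum_congr rfl h1, ← Finset.mul_sum, riesz_poly d hd (Hm d m) (Hm_natDegree d m hm),
      Hm_eval_one, Hm_deriv_eval_one d m hm]
    by_cases h0 : m = 0
    · subst h0
      simp
    · by_cases h1 : m = 1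
      · subst h1
        simp
        field_simp
        norm_num
      · simp [h0, h1]
  exact_mod_cast key

lemma sum_wk (d : ℕ) (hd : d ≠ 0) : ∑ k ∈ range (2 * d), wk d k = d := by
  have hd' : (d : ℂ) ≠ 0 := by exact_mod_cast hd
  have key : ((∑ k ∈ range (2 * d), wk d k : ℝ) : ℂ) = ((d : ℝ) : ℂ) := by
    push_cast
    have h1 : ∀ k ∈ range (2 * d), (wk d k : ℂ)
        = (-1 / d) * (zk d k ^ 1 / (1 - zk d k) ^ 2) := by
      intro k hk
      rw [wk_complex d k hd (Finset.mem_range.mp hk)]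
      have h2 := one_sub_zk_ne d k hd (Finset.mem_range.mp hk)
      field_simp
    rw [Finset.sum_congr rfl h1, ← Finset.mul_sum]
    have := SS_value d 1 hd le_rfl (by omega)
    unfold SS at this
    rw [this]
    push_cast
    field_simp
    ring
  exact_mod_cast key

lemma cos_xk_lt (d k : ℕ) (hd : d ≠ 0) (hk : k < 2 * d) : Real.cos (xk d k) < 1 := by
  have h1 := xk_pos d k hd
  have h2 := xk_lt d k hd hk
  by_contra hcon
  push Not at hcon
  have h3 : Real.cos (xk d k) = 1 := le_antisymm (Real.cos_le_one _) hcon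
  rw [Real.cos_eq_one_iff_of_lt_of_lt (by linarith [Real.pi_pos]) (by linarith [Real.pi_pos])] at h3
  linarith

lemma wk_pos (d k : ℕ) (hd : d ≠ 0) (hk : k < 2 * d) : 0 < wk d k := by
  unfold wk
  have h1 := cos_xk_lt d k hd hk
  have h2 : 0 < (d : ℝ) := by exact_mod_cast Nat.pos_of_ne_zero hd
  have h3 : 0 < 1 - Real.cos (xk d k) := by linarith
  positivity

/-- M. Riesz's interpolation formula for polynomials of degree at most `d`. -/
lemma riesz (d : ℕ) (hd : d ≠ 0) (p : Polynomial ℝ) (hp : p.natDegree ≤ d) :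
    (derivative p).eval 0
      = ∑ k ∈ range (2 * d), (-1 : ℝ) ^ k * wk d k * p.eval (Real.sin (xk d k)) := by
  have hn : p.natDegree < d + 1 := by omega
  have h1 : ∀ y : ℝ, p.eval y = ∑ m ∈ range (d + 1), p.coeff m * y ^ m := fun y =>
    Polynomial.eval_eq_sum_range' hn y
  have h2 : (derivative p).eval 0 = p.coeff 1 := by
    rw [← Polynomial.coeff_zero_eq_eval_zero, Polynomial.coeff_derivative]
    simp
  rw [h2]
  simp_rw [h1]
  have h3 : ∀ k, (-1 : ℝ) ^ k * wk d k * ∑ m ∈ range (d + 1), p.coeff m * Real.sin (xk d k) ^ m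
      = ∑ m ∈ range (d + 1), p.coeff m * ((-1 : ℝ) ^ k * wk d k * Real.sin (xk d k) ^ m) := by
    intro k
    rw [Finset.mul_sum]
    refine Finset.sum_congr rfl fun m _ => ?_
    ring
  simp_rw [h3]
  rw [Finset.sum_comm]
  simp_rw [← Finset.mul_sum]
  have h4 : ∀ m ∈ range (d + 1), p.coeff m *
      ∑ k ∈ range (2 * d), (-1 : ℝ) ^ k * wk d k * Real.sin (xk d k) ^ m
      = if m = 1 then p.coeff m else 0 := by
    intro m hm
    rw [riesz_mono d m hd (by have := Finset.mem_range.mp hm; omega)]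
    split_ifs <;> ring
  rw [Finset.sum_congr rfl h4, Finset.sum_ite_eq' ]
  have : 1 ∈ range (d + 1) := by
    rw [Finset.mem_range]
    omega
  simp [this]

end Vale.Agent.helper2.P047
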