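import Vale.Agent.helper2.P047C

open Finset BigOperators Polynomial

namespace Vale.Agent.helper2.P047

lemma xk_zero (d : ℕ) : xk d 0 = Real.pi / (2 * d) := by
  unfold xk
  push_cast
  ring

lemma sin_upper (y : ℝ) (h0 : 0 ≤ y) (h1 : y ≤ 1) : Real.sin y ≤ y - y ^ 3 / 6 + y ^ 5 / 100 := by
  have := Real.sin_bound (x := y) (by rw [abs_of_nonneg h0]; exact h1)
  rw [abs_of_nonneg h0] at this
  have h2 := (abs_le.mp this).2
  linarith

lemma exp_bound : Real.exp (18 / 5) ≤ 39 := by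
  have h1 : Real.exp (18 / 5) ^ 5 = Real.exp 18 := by
    rw [← Real.exp_nat_mul]
    norm_num
  have h2 : Real.exp 18 = Real.exp 1 ^ 18 := by
    rw [← Real.exp_nat_mul]
    norm_num
  have h3 : Real.exp 1 ^ 18 ≤ (2.7182818286 : ℝ) ^ 18 :=
    pow_le_pow_left₀ (Real.exp_pos 1).le Real.exp_one_lt_d9.le 18
  have h4 : Real.exp (18 / 5) ^ 5 ≤ (39 : ℝ) ^ 5 := by
    rw [h1, h2]
    refine le_trans h3 ?_
    norm_num
  exact le_of_pow_le_pow_left₀ (by norm_num) (by norm_num) h4

lemma ratio_mono (T τ : ℝ) (hT0 : 0 ≤ T) (h : T ≤ τ) (hτ : τ < 1) :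
    (1 + T) / (1 - T) ≤ (1 + τ) / (1 - τ) := by
  rw [div_le_div_iff₀ (by linarith) (by linarith)]
  nlinarith

lemma ratio_one_le (T : ℝ) (hT0 : 0 ≤ T) (hT1 : T < 1) : 1 ≤ (1 + T) / (1 - T) := by
  rw [le_div_iff₀ (by linarith)]
  linarith

/-- the numerical bound -/
lemma K_bound (d : ℕ) (hd : 2 ≤ d) :
    ((1 + Real.sin (xk d 0)) / (1 - Real.sin (xk d 0))) ^ d ≤ 39 := by
  have hpi1 := Real.pi_gt_d4
  have hpi2 := Real.pi_lt_d4
  rw [xk_zero]
  set y := Real.pi / (2 * d) with hy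
  have hd0 : (0 : ℝ) < d := by
    have : 0 < d := by omega
    exact_mod_cast this
  have hd2 : (2 : ℝ) ≤ d := by exact_mod_cast hd
  have hy0 : 0 < y := by positivity
  have hy1 : y ≤ 0.7854 := by
    rw [hy, div_le_iff₀ (by positivity)]
    nlinarith
  have hT0 : 0 ≤ Real.sin y := (Real.sin_pos_of_pos_of_lt_pi hy0 (by linarith)).le
  have hTy : Real.sin y ≤ y := Real.sin_le hy0.le
  have hsin := sin_upper y hy0.le (by linarith)
  -- finite checks
  have finite : ∀ (D : ℕ) (l u τ : ℝ), d = D → (D : ℝ) * (2 * l) ≤ Real.pi → Real.pi ≤ (D : ℝ) * (2 * u) →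
      0 ≤ l → u ≤ 1 → u - l ^ 3 / 6 + u ^ 5 / 100 ≤ τ → τ < 1 → ((1 + τ) / (1 - τ)) ^ D ≤ 39 →
      ((1 + Real.sin y) / (1 - Real.sin y)) ^ d ≤ 39 := by
    intro D l u τ hD h1 h2 hl hu hτ hτ1 hnum
    subst hD
    have h3 : l ≤ y := by
      rw [hy, le_div_iff₀ (by positivity)]
      nlinarith
    have h4 : y ≤ u := by
      rw [hy, div_le_iff₀ (by positivity)]
      nlinarith
    have h5 : l ^ 3 ≤ y ^ 3 := pow_le_pow_left₀ hl h3 3
    have h6 : y ^ 5 ≤ u ^ 5 := pow_le_pow_left₀ hy0.le h4 5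
    have h7 : Real.sin y ≤ τ := by linarith
    refine le_trans (pow_le_pow_left₀ ?_ (ratio_mono _ _ hT0 h7 hτ1) _) hnum
    exact le_trans zero_le_one (ratio_one_le _ hT0 (by linarith))
  by_cases h2 : d = 2
  · exact finite 2 0.785 0.7854 0.7078 h2 (by norm_num; linarith) (by norm_num; linarith) (by norm_num)
      (by norm_num) (by norm_num) (by norm_num) (by norm_num)
  by_cases h3 : d = 3
  · exact finite 3 0.5233 0.5236 0.5002 h3 (by norm_num; linarith) (by norm_num; linarith) (by norm_num)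
      (by norm_num) (by norm_num) (by norm_num) (by norm_num)
  by_cases h4 : d = 4
  · exact finite 4 0.3925 0.3927 0.3828 h4 (by norm_num; linarith) (by norm_num; linarith) (by norm_num)
      (by norm_num) (by norm_num) (by norm_num) (by norm_num)
  by_cases h5 : d = 5
  · exact finite 5 0.314 0.31416 0.3091 h5 (by norm_num; linarith) (by norm_num; linarith) (by norm_num)
      (by norm_num) (by norm_num) (by norm_num) (by norm_num)
  by_cases h6 : d = 6
  · exact finite 6 0.2616 0.2618 0.2589 h6 (by norm_num; linarith) (by norm_num; linarith) (by norm_num)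
      (by norm_num) (by norm_num) (by norm_num) (by norm_num)
  -- large d
  have hd7 : (7 : ℝ) ≤ d := by
    have : 7 ≤ d := by omega
    exact_mod_cast this
  have hy2 : y ≤ 0.2244 := by
    rw [hy, div_le_iff₀ (by positivity)]
    nlinarith
  set T := Real.sin y with hT
  have hT1 : T ≤ 0.2244 := le_trans hTy hy2
  have h1T : 0 < 1 - T := by linarith
  have hA : 1 + T ≤ Real.exp T := by linarith [Real.add_one_le_exp T]
  have hB : 1 / (1 - T) ≤ Real.exp (T * 1.2894) := by
    have h7 : T * 1.2894 + 1 ≤ Real.exp (T * 1.2894) := Real.add_one_le_exp _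
    refine le_trans ?_ h7
    rw [div_le_iff₀ h1T]
    nlinarith
  have hC : (1 + T) / (1 - T) ≤ Real.exp (2.2894 * T) := by
    have e : (2.2894 : ℝ) * T = T + T * 1.2894 := by ring
    rw [e, Real.exp_add, div_eq_mul_one_div]
    exact mul_le_mul hA hB (by positivity) (Real.exp_pos _).le
  have hD : ((1 + T) / (1 - T)) ^ d ≤ Real.exp (18 / 5) := by
    refine le_trans (pow_le_pow_left₀ (le_trans zero_le_one (ratio_one_le _ hT0 (by linarith))) hC d) ?_
    rw [← Real.exp_nat_mul]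
    apply Real.exp_le_exp.mpr
    have h8 : (d : ℝ) * y = Real.pi / 2 := by
      rw [hy]
      field_simp
    have h9 : (d : ℝ) * T ≤ Real.pi / 2 := by
      rw [← h8]
      exact mul_le_mul_of_nonneg_left hTy hd0.le
    nlinarith
  exact le_trans hD exp_bound

variable {n : ℕ}

lemma const_case (f : (Fin n → Bool) → ℝ) (c : ℝ) (h : ∀ x, f x = c) :
    ∑ i : Fin n, fhat f {i} = 0 := by
  rw [← gp_deriv_zero, ← Polynomial.deriv]
  have h1 : (fun t => eval t (gp f)) = fun _ => c := by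
    funext t
    rw [gp_eval]
    have : f = fun _ => c * 1 := by
      funext x
      rw [h x, mul_one]
    rw [this, Et_const_mul, Et_one, mul_one]
  rw [h1]
  simp

/-- The main theorem: the level-one Fourier sum of a Boolean function of degree at most `d`,
`d ≥ 2`, is at most `(24/25) d`. -/
theorem main_bound (d : ℕ) (hd : 2 ≤ d) (f : (Fin n → Bool) → ℝ)
    (hf : ∀ x, f x = 1 ∨ f x = -1) (hdeg : ∀ S, d < S.card → fhat f S = 0) :
    ∑ i : Fin n, fhat f {i} ≤ (24 / 25) * d := by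
  have hd0 : d ≠ 0 := by omega
  have hdR : (0 : ℝ) < d := by
    have : 0 < d := by omega
    exact_mod_cast this
  have hd2R : (2 : ℝ) ≤ d := by exact_mod_cast hd
  by_cases hc1 : ∀ x, f x = 1
  · rw [const_case f 1 hc1]
    positivity
  by_cases hc2 : ∀ x, f x = -1
  · rw [const_case f (-1) hc2]
    positivity
  obtain ⟨x0, hx0⟩ : ∃ x, f x = -1 := by
    push Not at hc1
    obtain ⟨x, hx⟩ := hc1
    exact ⟨x, (hf x).resolve_left hx⟩
  obtain ⟨x1, hx1⟩ : ∃ x, f x = 1 := by
    push Not at hc2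
    obtain ⟨x, hx⟩ := hc2
    exact ⟨x, (hf x).resolve_right hx⟩
  set p := gp f with hp
  have hlt : ∀ t, -1 < t → t < 1 → |p.eval t| < 1 := fun t h1 h2 =>
    abs_lt.mpr ⟨gp_gt_neg_one f hf t h1 h2 x1 hx1, gp_lt_one f hf t h1 h2 x0 hx0⟩
  have hy0 : 0 < xk d 0 := xk_pos d 0 hd0
  have hy1 : xk d 0 ≤ 0.7854 := by
    rw [xk_zero, div_le_iff₀ (by positivity)]
    nlinarith [Real.pi_lt_d4]
  set T := Real.sin (xk d 0) with hT
  have hT0 : 0 < T := Real.sin_pos_of_pos_of_lt_pi hy0 (by linarith [Real.pi_gt_d4])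
  have hT1 : T < 1 := by
    have := Real.sin_le hy0.le
    linarith
  have hode := ode_bound p d T hT0 hT1 hlt (fun t h1 h2 => main_diff f hf d hdeg t h1 h2)
  set b := p.eval T with hb
  set a := p.eval (-T) with ha
  set K := ((1 + T) / (1 - T)) ^ d with hK
  have hbb := abs_lt.mp (hlt T (by linarith) hT1)
  have haa := abs_lt.mp (hlt (-T) (by linarith) (by linarith))
  have hK1 : 1 ≤ K := one_le_pow₀ (ratio_one_le T hT0.le hT1)
  have hK39 : K ≤ 39 := K_bound d hd
  have hsig := sigma_bound (1 - b) (1 + a) K (by linarith) (by linarith) hK1 (by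
    have e1 : (2 - (1 - b)) = 1 + b := by ring
    have e2 : (2 - (1 + a)) = 1 - a := by ring
    rw [e1, e2]
    have e3 : K ^ 2 = ((1 + T) / (1 - T)) ^ (2 * d) := by
      rw [hK, ← pow_mul, mul_comm]
    rw [e3]
    exact hode)
  have huv : 1 / 10 ≤ (1 - b) + (1 + a) := by
    refine le_trans ?_ hsig
    rw [div_le_div_iff₀ (by norm_num) (by linarith)]
    linarith
  -- the interpolation formula
  have hR := riesz d hd0 p (gp_natDegree f d hdeg)
  rw [hp, gp_deriv_zero] at hR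
  rw [hR]
  have hS := sum_wk d hd0
  have hnn : ∀ k ∈ range (2 * d), 0 ≤ wk d k * (1 - (-1 : ℝ) ^ k * p.eval (Real.sin (xk d k))) := by
    intro k hk
    refine mul_nonneg (wk_pos d k hd0 (Finset.mem_range.mp hk)).le ?_
    have h1 := gp_abs_le f hf (Real.sin (xk d k)) (Real.neg_one_le_sin _) (Real.sin_le_one _)
    have h2 : |(-1 : ℝ) ^ k * p.eval (Real.sin (xk d k))| ≤ 1 := by
      rw [abs_mul, abs_pow, abs_neg, abs_one, one_pow, one_mul]
      exact h1
    linarith [(abs_le.mp h2).2]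
  have hlast : 2 * d - 1 < 2 * d := by omega
  have h0 : 0 < 2 * d := by omega
  have hne : (0 : ℕ) ≠ 2 * d - 1 := by omega
  have hsub : ({0, 2 * d - 1} : Finset ℕ) ⊆ range (2 * d) := by
    intro k hk
    simp only [Finset.mem_insert, Finset.mem_singleton] at hk
    rw [Finset.mem_range]
    omega
  have hge := Finset.sum_le_sum_of_subset_of_nonneg hsub (fun k hk _ => hnn k hk)
  rw [Finset.sum_pair hne] at hge
  -- evaluate the two special terms
  have hcos : Real.cos (xk d (2 * d - 1)) = Real.cos (xk d 0) ∧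
      Real.sin (xk d (2 * d - 1)) = - Real.sin (xk d 0) := by
    have e : xk d (2 * d - 1) = 2 * Real.pi - xk d 0 := by
      rw [xk_zero]
      unfold xk
      have : ((2 * d - 1 : ℕ) : ℝ) = 2 * d - 1 := by
        have h1 : 1 ≤ 2 * d := by omega
        push_cast [Nat.cast_sub h1]
        ring
      rw [this]
      field_simp
      ring
    rw [e]
    exact ⟨Real.cos_two_pi_sub _, Real.sin_two_pi_sub _⟩
  have hw : wk d (2 * d - 1) = wk d 0 := by
    unfold wk
    rw [hcos.1]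
  have hodd : Odd (2 * d - 1) := by
    refine ⟨d - 1, ?_⟩
    omega
  have hsgn : (-1 : ℝ) ^ (2 * d - 1) = -1 := hodd.neg_one_pow
  have term0 : wk d 0 * (1 - (-1 : ℝ) ^ 0 * p.eval (Real.sin (xk d 0))) = wk d 0 * (1 - b) := by
    simp [hb, hT]
  have term1 : wk d (2 * d - 1) * (1 - (-1 : ℝ) ^ (2 * d - 1) * p.eval (Real.sin (xk d (2 * d - 1))))
      = wk d 0 * (1 + a) := by
    rw [hw, hsgn, hcos.2, ← hT, ← ha]
    ring
  rw [term0, term1] at hge
  -- rewrite the sum
  have hsum : ∑ k ∈ range (2 * d), wk d k * (1 - (-1 : ℝ) ^ k * p.eval (Real.sin (xk d k)))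
      = d - ∑ k ∈ range (2 * d), (-1 : ℝ) ^ k * wk d k * p.eval (Real.sin (xk d k)) := by
    rw [← hS, ← Finset.sum_sub_distrib]
    refine Finset.sum_congr rfl fun k _ => ?_
    ring
  rw [hsum] at hge
  -- lower bound on the weight
  have hw0 : (2 / 5) * (d : ℝ) ≤ wk d 0 := by
    have hcosb : 1 - Real.cos (xk d 0) ≤ (xk d 0) ^ 2 / 2 := by
      have := Real.one_sub_sq_div_two_le_cos (x := xk d 0)
      linarith
    have hcl := cos_xk_lt d 0 hd0 (by omega)
    unfold wk
    rw [le_div_iff₀ (by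
      have : 0 < 1 - Real.cos (xk d 0) := by linarith
      positivity)]
    have h1 : (xk d 0) ^ 2 = Real.pi ^ 2 / (4 * d ^ 2) := by
      rw [xk_zero]
      field_simp
      ring
    have h2 : Real.pi ^ 2 ≤ 10 := by nlinarith [Real.pi_lt_d2, Real.pi_pos]
    have h3 : (d : ℝ) ^ 2 * (xk d 0) ^ 2 ≤ 5 / 2 := by
      rw [h1]
      field_simp
      linarith
    have h4 : 0 ≤ 2 / 5 * (d : ℝ) * (2 * d) := by positivity
    calc 2 / 5 * (d : ℝ) * (2 * d * (1 - Real.cos (xk d 0)))
        = (2 / 5 * (d : ℝ) * (2 * d)) * (1 - Real.cos (xk d 0)) := by ring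
      _ ≤ (2 / 5 * (d : ℝ) * (2 * d)) * ((xk d 0) ^ 2 / 2) := mul_le_mul_of_nonneg_left hcosb h4
      _ = (2 / 5) * ((d : ℝ) ^ 2 * (xk d 0) ^ 2) := by ring
      _ ≤ (2 / 5) * (5 / 2) := by linarith
      _ = 1 := by norm_num
  nlinarith [wk_pos d 0 hd0 (by omega)]

end Vale.Agent.helper2.P047
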