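import Mathlib

open Finset BigOperators

namespace Vale.Agent.helper2.P047

/-- The value of a coordinate of the discrete cube: `true` is `1`, `false` is `-1`. -/
def sg (b : Bool) : ℝ := if b then 1 else -1

variable {n : ℕ}

/-- The character `x ↦ ∏_{i ∈ S} x_i` of the discrete cube. -/
def chi (S : Finset (Fin n)) (x : Fin n → Bool) : ℝ := ∏ i ∈ S, sg (x i)

/-- The Fourier coefficient `E[f(X) ∏_{i ∈ S} X_i]` for `X` uniform on the cube. -/
noncomputable def fhat (f : (Fin n → Bool) → ℝ) (S : Finset (Fin n)) : ℝ :=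
  (∑ x, f x * chi S x) / 2 ^ n


end Vale.Agent.helper2.P047
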